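import Mathlib
import Vale.Agent.P202.Basic
import Vale.Agent.P202.Weighted

/-! Lech's inequality for flat local maps whose artinian closed fibre has no relations of low
degree, relative to its Loewy length and its length. -/

namespace Vale.Agent.Results.P202.ArtinianFibre

open IsLocalRing Filter Topology Vale.Agent.P202

theorem result {R S : Type*} [CommRing R] [CommRing S] [IsLocalRing R] [IsLocalRing S]
    [IsNoetherianRing R] [IsNoetherianRing S] [Algebra R S] [IsLocalHom (algebraMap R S)]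
    [Module.Flat R S] (e : ℕ) (he : 2 ≤ e) (x : Fin e → S)
    (hx : maximalIdeal S = (maximalIdeal R).map (algebraMap R S) ⊔ Ideal.span (Set.range x))
    (q c : ℕ) (hc : 1 ≤ c)
    (hs : maximalIdeal S ^ (q + c) ≤ (maximalIdeal R).map (algebraMap R S))
    (hrel : ∀ j ≤ q, ∀ a : Sym (Fin e) j → S,
      ∑ α, a α * (Multiset.map x (α : Multiset (Fin e))).prod ∈
          maximalIdeal S ^ (j + 1) ⊔ (maximalIdeal R).map (algebraMap R S) →
        ∀ α, a α ∈ maximalIdeal S)
    (d : ℕ) (eR eS : ℝ)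
    (hR : Tendsto (fun N : ℕ => (d.factorial : ℝ) *
      ((Module.length R (R ⧸ maximalIdeal R ^ N)).toNat : ℝ) / (N : ℝ) ^ d) atTop (𝓝 eR))
    (hS : Tendsto (fun N : ℕ => (d.factorial : ℝ) *
      ((Module.length S (S ⧸ maximalIdeal S ^ N)).toNat : ℝ) / (N : ℝ) ^ d) atTop (𝓝 eS)) :
    ((Module.length S (S ⧸ (maximalIdeal R).map (algebraMap R S))).toNat : ℝ) * eR
        ≤ (c : ℝ) ^ d * eS ∧
      (c ^ d ≤ (Module.length S (S ⧸ (maximalIdeal R).map (algebraMap R S))).toNat →
        eR ≤ eS) := by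
  set r : ℕ := (Module.length S (S ⧸ (maximalIdeal R).map (algebraMap R S))).toNat with hr
  let b : ℕ → ℝ := fun N => (d.factorial : ℝ) *
      ((Module.length S (S ⧸ maximalIdeal S ^ N)).toNat : ℝ) / (N : ℝ) ^ d
  have hlen : ∀ N, Module.length R (R ⧸ maximalIdeal R ^ N) *
      Module.length S (S ⧸ mS R S) ≤ Module.length S (S ⧸ maximalIdeal S ^ (c * N + q)) := fun N => by
    rw [← IsLocalRing.length_baseChange R S (R ⧸ maximalIdeal R ^ N),
      ← (Algebra.TensorProduct.quotIdealMapEquivTensorQuot S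
        (maximalIdeal R ^ N)).toLinearEquiv.length_eq, Ideal.map_pow]
    have hle : maximalIdeal S ^ (c * N + q) ≤ mS R S ^ N :=
      pow_le_ext_pow (R := R) hx he hc hs hrel N
    exact Module.length_le_of_surjective (Submodule.factor hle) (Submodule.factor_surjective hle)
  have hnat : ∀ N, (Module.length R (R ⧸ maximalIdeal R ^ N)).toNat * r
      ≤ (Module.length S (S ⧸ maximalIdeal S ^ (c * N + q))).toNat := fun N => by
    rw [hr, ← ENat.toNat_mul]
    exact ENat.toNat_le_toNat (hlen N) (length_quot_ne_top _)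
  have hM : Tendsto (fun N : ℕ => c * N + q) atTop atTop :=
    tendsto_atTop_atTop.2 fun k => ⟨k, fun N hN =>
      le_trans hN (le_trans (Nat.le_mul_of_pos_left N hc) (Nat.le_add_right _ _))⟩
  have hq : Tendsto (fun N : ℕ => ((c : ℝ) + (q : ℝ) / (N : ℝ)) ^ d) atTop (𝓝 ((c : ℝ) ^ d)) := by
    simpa using ((tendsto_const_nhds (x := (c : ℝ))).add
      (tendsto_const_div_atTop_nhds_zero_nat (q : ℝ))).pow d
  have hbig : Tendsto (fun N => b (c * N + q) * ((c : ℝ) + (q : ℝ) / (N : ℝ)) ^ d) atTop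
      (𝓝 (eS * (c : ℝ) ^ d)) := (hS.comp hM).mul hq
  have hmain : (r : ℝ) * eR ≤ eS * (c : ℝ) ^ d := by
    refine le_of_tendsto_of_tendsto (hR.const_mul (r : ℝ)) hbig ?_
    filter_upwards [eventually_gt_atTop 0] with N hN
    have hN' : (0 : ℝ) < N := by exact_mod_cast hN
    have hc' : (0 : ℝ) < c := by exact_mod_cast hc
    have hpos : (0 : ℝ) < (c : ℝ) * N + q := by positivity
    have heq : b (c * N + q) * ((c : ℝ) + (q : ℝ) / (N : ℝ)) ^ d = (d.factorial : ℝ) *
        ((Module.length S (S ⧸ maximalIdeal S ^ (c * N + q))).toNat : ℝ) / (N : ℝ) ^ d := by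
      simp only [b]
      push_cast
      rw [show (c : ℝ) + (q : ℝ) / (N : ℝ) = ((c : ℝ) * N + q) / N by field_simp, div_pow]
      field_simp
    rw [heq, mul_div_assoc', mul_comm (r : ℝ), mul_assoc]
    gcongr
    exact_mod_cast hnat N
  refine ⟨by linarith [mul_comm ((c : ℝ) ^ d) eS], fun h => ?_⟩
  have hR0 : 0 ≤ eR := ge_of_tendsto hR (Eventually.of_forall fun N => by positivity)
  have hle : (c : ℝ) ^ d ≤ r := by exact_mod_cast h
  have htpos : (0 : ℝ) < (c : ℝ) ^ d := by
    have : (0 : ℝ) < c := by exact_mod_cast hc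
    positivity
  nlinarith [mul_le_mul_of_nonneg_right hle hR0]

end Vale.Agent.Results.P202.ArtinianFibre
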