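import Vale.Agent.P202.Embdim2.Key
import Vale.Agent.P202.Embdim2.Asymp

/-! Lech's inequality, in every dimension, for flat local maps in equal characteristic zero whose
closed fibre is artinian of embedding dimension at most two. -/

namespace Vale.Agent.Results.P202.SmallEmbeddingFibre

open IsLocalRing Filter Topology Finset Vale.Agent.P202 Vale.Agent.P202.Embdim2

theorem result {k R S : Type*} [Field k] [CharZero k] [CommRing R] [CommRing S] [IsLocalRing R]
    [IsLocalRing S] [IsNoetherianRing R] [IsNoetherianRing S] [Algebra k R] [Algebra R S]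
    [Algebra k S] [IsScalarTower k R S] [IsLocalHom (algebraMap R S)] [Module.Flat R S]
    (hkR : Function.Surjective (algebraMap k (ResidueField R)))
    (hkS : Function.Surjective (algebraMap k (ResidueField S)))
    (x y : S) (hn : maximalIdeal S = (maximalIdeal R).map (algebraMap R S) ⊔ Ideal.span {x, y})
    (N₀ : ℕ) (hfin : maximalIdeal S ^ N₀ ≤ (maximalIdeal R).map (algebraMap R S)) :
    (∀ (n : ℕ) (g : Fin n → R), 1 ≤ n → Ideal.span (Set.range g) = maximalIdeal R → ∀ i : ℕ,
        ∑ l ∈ range (i + 1), Nat.multichoose n (i - l) *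
            (Module.length R (R ⧸ maximalIdeal R ^ l)).toNat
          ≤ ∑ l ∈ range (i + 1), Nat.multichoose n (i - l) *
            (Module.length S (S ⧸ maximalIdeal S ^ l)).toNat) ∧
      ∀ (d : ℕ) (eR eS : ℝ),
        Tendsto (fun N : ℕ => (d.factorial : ℝ) *
          ((Module.length R (R ⧸ maximalIdeal R ^ N)).toNat : ℝ) / (N : ℝ) ^ d) atTop (𝓝 eR) →
        Tendsto (fun N : ℕ => (d.factorial : ℝ) *
          ((Module.length S (S ⧸ maximalIdeal S ^ N)).toNat : ℝ) / (N : ℝ) ^ d) atTop (𝓝 eS) →
        eR ≤ eS := by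
  refine ⟨fun n g hn0 hg i => key hkR hkS x y hn hfin hn0 g hg i, fun d eR eS hR hS => ?_⟩
  obtain ⟨t, ht⟩ := IsNoetherian.noetherian (maximalIdeal R)
  classical
  let g : Fin (t.card + 1) → R := Fin.cons 0 (fun l => (t.equivFin.symm l : R))
  have hg : Ideal.span (Set.range g) = maximalIdeal R := by
    rw [Fin.range_cons, Ideal.span, Submodule.span_insert_zero]
    have : Set.range (fun l => (t.equivFin.symm l : R)) = (t : Set R) := by
      rw [show (fun l => (t.equivFin.symm l : R)) = Subtype.val ∘ t.equivFin.symm from rfl,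
        t.equivFin.symm.surjective.range_comp]
      simp
    rw [this]
    exact ht
  exact le_of_conv_le (n := t.card + 1) (a := hs R) (b := hs S)
    (fun i => key hkR hkS x y hn hfin (Nat.succ_pos _) g hg i) hR hS

end Vale.Agent.Results.P202.SmallEmbeddingFibre
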